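import Vale.Agent.P038.H65.Swap

/-!
# P038 (H65): inner and outer pairs, and the contradiction with 294's inequality
-/

namespace Vale.Agent.P038.H65

open Finset Vale.Agent.P038.H139 Vale.Agent.P038.H38

universe u

variable {V : Type u} [Fintype V]

/-- `a` is a closed in-neighbour of `z`. -/
def Nn (D : OGraph V) (z a : V) : Prop := a = z ∨ D.arc a z

theorem nn_self (D : OGraph V) (z : V) : Nn D z z := Or.inl rfl

theorem mem_cl_iff {D : OGraph V} {S : Finset V} {z : V} :
    z ∈ cl D S ↔ ∃ a, Nn D z a ∧ a ∈ S := by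
  rw [mem_cl]
  constructor
  · rintro (h | ⟨y, hy, hyz⟩)
    · exact ⟨z, Or.inl rfl, h⟩
    · exact ⟨y, Or.inr hyz, hy⟩
  · rintro ⟨a, rfl | h, ha⟩
    · exact Or.inl ha
    · exact Or.inr ⟨a, ha, h⟩

/-- The weight of the first out-layer. -/
noncomputable def cc (D : OGraph V) (w : V → ℝ) (S : Finset V) : ℝ := W w (cl D S) - W w S

theorem cc_sub [DecidableEq V] (D : OGraph V) {w : V → ℝ} (hw : ∀ v, 0 ≤ w v) (S T : Finset V) :
    cc D w (S ∩ T) + cc D w (S ∪ T) ≤ cc D w S + cc D w T := by
  have h1 : cl D (S ∪ T) = cl D S ∪ cl D T := by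
    ext z
    simp only [Finset.mem_union, mem_cl_iff]
    constructor
    · rintro ⟨a, ha, h | h⟩
      · exact Or.inl ⟨a, ha, h⟩
      · exact Or.inr ⟨a, ha, h⟩
    · rintro (⟨a, ha, h⟩ | ⟨a, ha, h⟩)
      · exact ⟨a, ha, Or.inl h⟩
      · exact ⟨a, ha, Or.inr h⟩
  have h2 : cl D (S ∩ T) ⊆ cl D S ∩ cl D T := by
    intro z hz
    obtain ⟨a, ha, h⟩ := mem_cl_iff.1 hz
    obtain ⟨h3, h4⟩ := Finset.mem_inter.1 h
    exact Finset.mem_inter.2 ⟨mem_cl_iff.2 ⟨a, ha, h3⟩, mem_cl_iff.2 ⟨a, ha, h4⟩⟩
  have h3 := W_mono hw h2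
  have h4 : W w (cl D S ∪ cl D T) + W w (cl D S ∩ cl D T) = W w (cl D S) + W w (cl D T) :=
    Finset.sum_union_inter
  have h5 : W w (S ∪ T) + W w (S ∩ T) = W w S + W w T := Finset.sum_union_inter
  unfold cc
  rw [h1]
  linarith

/-- Outer pairs. -/
structure Outer (D : OGraph V) (B C : V → Finset V) : Prop where
  left : ∀ a b, Nn D b a → b ∈ B a
  right : ∀ a b, Nn D b a → b ∈ C a
  compat : ∀ a b, b ∈ B a → a ∈ C b → a = b

/-- Inner pairs. -/
structure Inner (D : OGraph V) (X Y : V → Finset V) : Prop where
  left : ∀ a, a ∈ X a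
  right : ∀ a, a ∈ Y a
  compat : ∀ a b, b ∈ cl D (X a) → a ∈ cl D (Y b) → a = b

/-- The energy of a pair. -/
noncomputable def En2 (D : OGraph V) (w : V → ℝ) (B C : V → Finset V) : ℝ :=
  ∑ a, w a * cc D w (B a) + ∑ b, w b * cc D w (C b)

theorem Inner.outer {D : OGraph V} {X Y : V → Finset V} (h : Inner D X Y) :
    Outer D (fun a => cl D (X a)) (fun b => cl D (Y b)) where
  left a b hab := mem_cl_iff.2 ⟨a, hab, h.left a⟩
  right a b hab := mem_cl_iff.2 ⟨a, hab, h.right a⟩
  compat := h.compat

theorem inner_singleton (D : OGraph V) : Inner D (fun a => {a}) (fun a => {a}) where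
  left a := Finset.mem_singleton_self a
  right a := Finset.mem_singleton_self a
  compat a b h1 h2 := by
    obtain ⟨x, hx, hx'⟩ := mem_cl_iff.1 h1
    obtain ⟨y, hy, hy'⟩ := mem_cl_iff.1 h2
    rw [Finset.mem_singleton] at hx' hy'
    subst hx'
    subst hy'
    rcases hx with hx | hx
    · exact hx
    · rcases hy with hy | hy
      · exact hy.symm
      · exact absurd hy (D.asymm _ _ hx)

theorem W_ind [DecidableEq V] (w : V → ℝ) (S : Finset V) :
    W w S = ∑ a, w a * (if a ∈ S then 1 else 0) := by
  unfold W
  rw [← Finset.sum_filter_add_sum_filter_not univ (fun a => a ∈ S)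
    (fun a => w a * (if a ∈ S then (1 : ℝ) else 0))]
  have h1 : ∑ a ∈ univ.filter (fun a => a ∉ S), w a * (if a ∈ S then (1 : ℝ) else 0) = 0 :=
    Finset.sum_eq_zero fun a ha => by
      rw [if_neg (Finset.mem_filter.1 ha).2, mul_zero]
  rw [h1, add_zero]
  have h2 : univ.filter (fun a => a ∈ S) = S := by
    ext a
    simp
  rw [h2]
  refine Finset.sum_congr rfl fun a ha => ?_
  rw [if_pos ha, mul_one]

theorem dsum1 [DecidableEq V] (w : V → ℝ) (S : V → Finset V) :
    ∑ b, w b * W w (S b) = ∑ a, ∑ b, w a * w b * (if a ∈ S b then (1 : ℝ) else 0) := by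
  rw [Finset.sum_comm]
  refine Finset.sum_congr rfl fun b _ => ?_
  rw [W_ind, Finset.mul_sum]
  refine Finset.sum_congr rfl fun a _ => ?_
  ring

theorem dsum2 [DecidableEq V] (w : V → ℝ) (S : V → Finset V) :
    ∑ a, w a * W w (S a) = ∑ a, ∑ b, w a * w b * (if b ∈ S a then (1 : ℝ) else 0) := by
  refine Finset.sum_congr rfl fun b _ => ?_
  rw [W_ind, Finset.mul_sum]
  refine Finset.sum_congr rfl fun a _ => ?_
  ring

theorem inner_of_outer [DecidableEq V] (D : OGraph V) {w : V → ℝ} (hw : ∀ v, 0 < w v)
    {B C : V → Finset V} (h : Outer D B C)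
    (hmin : ∀ B' C', Outer D B' C' → En2 D w B C ≤ En2 D w B' C') :
    ∃ X Y, Inner D X Y ∧ En2 D w X Y ≤ En2 D w B C := by
  classical
  have hw0 : ∀ v, 0 ≤ w v := fun v => (hw v).le
  let U : V → Finset V := fun a => univ.filter (fun b => b = a ∨ a ∉ C b)
  let m : V → Finset V := fun z => univ.filter (fun b => ∀ a, Nn D z a → b ∈ B a)
  let M : V → Finset V := fun z => univ.filter (fun b => ∀ a, Nn D z a → b ∈ U a)
  let Co : V → Finset V := fun z => univ.filter (fun b => ∀ a, Nn D z a → b ∈ C a)
  have memU : ∀ a b, b ∈ U a ↔ (b = a ∨ a ∉ C b) := fun a b => by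
    simp only [U, Finset.mem_filter, Finset.mem_univ, true_and]
  have memm : ∀ a b, b ∈ m a ↔ ∀ s, Nn D a s → b ∈ B s := fun a b => by
    simp only [m, Finset.mem_filter, Finset.mem_univ, true_and]
  have memM : ∀ a b, b ∈ M a ↔ ∀ s, Nn D a s → b ∈ U s := fun a b => by
    simp only [M, Finset.mem_filter, Finset.mem_univ, true_and]
  have memCo : ∀ a b, b ∈ Co a ↔ ∀ s, Nn D a s → b ∈ C s := fun a b => by
    simp only [Co, Finset.mem_filter, Finset.mem_univ, true_and]
  have hBU : ∀ a, B a ⊆ U a := fun a b hb => by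
    rw [memU]
    by_cases hc : a ∈ C b
    · exact Or.inl (h.compat a b hb hc).symm
    · exact Or.inr hc
  have hmM : ∀ a, m a ⊆ M a := fun a b hb => (memM a b).2 fun s hs => hBU s ((memm a b).1 hb s hs)
  -- the key inequality
  have hkey : ∑ a, w a * (cc D w (U a) - cc D w (B a)) ≤
      ∑ z, w z * (cc D w (M z) - cc D w (m z)) := by
    refine key (cc D w) (cc_sub D hw0) w hw0 (Nn D) B U m M hBU memm memM ?_ ?_
    · intro a Z h1 h2
      have h3 := hmin (Function.update B a Z) C
        { left := by
            intro a' b hb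
            by_cases e : a' = a
            · subst e
              rw [Function.update_self]
              exact h1 (h.left a' b hb)
            · rw [Function.update_of_ne e]
              exact h.left a' b hb
          right := h.right
          compat := by
            intro a' b hb hc
            by_cases e : a' = a
            · subst e
              rw [Function.update_self] at hb
              rcases (memU a' b).1 (h2 hb) with h4 | h4
              · exact h4.symm
              · exact absurd hc h4
            · rw [Function.update_of_ne e] at hb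
              exact h.compat a' b hb hc }
      have h4 : ∑ x, (w x * cc D w (Function.update B a Z x) - w x * cc D w (B x)) =
          w a * cc D w Z - w a * cc D w (B a) := by
        rw [Finset.sum_eq_single a]
        · rw [Function.update_self]
        · intro x _ hx
          rw [Function.update_of_ne hx, sub_self]
        · intro hx
          exact absurd (Finset.mem_univ a) hx
      rw [Finset.sum_sub_distrib] at h4
      unfold En2 at h3
      have h5 : w a * cc D w (B a) ≤ w a * cc D w Z := by linarith
      exact le_of_mul_le_mul_left h5 (hw a)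
    · intro b T hT
      have hTC : ∀ a ∈ T, a ∉ C b := by
        intro a ha hc
        obtain ⟨h1, h2⟩ := hT a ha
        rcases (memU a b).1 h1 with h3 | h3
        · subst h3
          exact h2 (h.left b b (nn_self D b))
        · exact h3 hc
      have h3 := hmin B (Function.update C b (C b ∪ T))
        { left := h.left
          right := by
            intro a' b' hb
            by_cases e : a' = b
            · subst e
              rw [Function.update_self]
              exact Finset.mem_union_left _ (h.right a' b' hb)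
            · rw [Function.update_of_ne e]
              exact h.right a' b' hb
          compat := by
            intro a' b' hb hc
            by_cases e : b' = b
            · subst e
              rw [Function.update_self] at hc
              rcases Finset.mem_union.1 hc with h4 | h4
              · exact h.compat a' b' hb h4
              · exact absurd hb (hT a' h4).2
            · rw [Function.update_of_ne e] at hc
              exact h.compat a' b' hb hc }
      have h4 : ∑ x, (w x * cc D w (Function.update C b (C b ∪ T) x) - w x * cc D w (C x)) =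
          w b * cc D w (C b ∪ T) - w b * cc D w (C b) := by
        rw [Finset.sum_eq_single b]
        · rw [Function.update_self]
        · intro x _ hx
          rw [Function.update_of_ne hx, sub_self]
        · intro hx
          exact absurd (Finset.mem_univ b) hx
      rw [Finset.sum_sub_distrib] at h4
      unfold En2 at h3
      have h5 : w b * cc D w (C b) ≤ w b * cc D w (C b ∪ T) := by linarith
      have h6 := le_of_mul_le_mul_left h5 (hw b)
      have h7 : W w (C b ∪ T) = W w (C b) + W w T :=
        W_union (Finset.disjoint_left.2 fun a ha ha' => hTC a ha' ha)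
      have hsubcl : cl D (C b) ⊆ cl D (C b ∪ T) := cl_mono' Finset.subset_union_left
      have h8 : W w (cl D (C b ∪ T) \ cl D (C b)) = W w (cl D (C b ∪ T)) - W w (cl D (C b)) :=
        W_sdiff hsubcl
      have h9 : cl D (C b ∪ T) \ cl D (C b) ⊆
          univ.filter (fun z => b ∈ M z ∧ ∃ a ∈ T, Nn D z a) := by
        intro z hz
        obtain ⟨hz1, hz2⟩ := Finset.mem_sdiff.1 hz
        obtain ⟨a, ha, ha'⟩ := mem_cl_iff.1 hz1
        refine Finset.mem_filter.2 ⟨Finset.mem_univ _, (memM z b).2 fun s hs => ?_, a, ?_, ha⟩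
        · refine (memU s b).2 (Or.inr fun hc => hz2 (mem_cl_iff.2 ⟨s, hs, hc⟩))
        · rcases Finset.mem_union.1 ha' with h10 | h10
          · exact absurd (mem_cl_iff.2 ⟨a, ha, h10⟩) hz2
          · exact h10
      have h10 := W_mono hw0 h9
      unfold cc at h6
      have h11 : W w T ≤ W w (univ.filter (fun z => b ∈ M z ∧ ∃ a ∈ T, Nn D z a)) := by linarith
      unfold W at h11
      convert h11
  -- memberships off the diagonal
  have f1 : ∀ a b, a ≠ b → (a ∈ Co b ↔ ¬ b ∈ cl D (U a)) := by
    intro a b hab
    rw [memCo, mem_cl_iff]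
    constructor
    · rintro h1 ⟨x, hx, hx'⟩
      rcases (memU a x).1 hx' with h2 | h2
      · subst h2
        exact hab (h.compat x b (h.left x b hx) (h1 b (nn_self D b)))
      · exact h2 (h1 x hx)
    · intro h1 x hx
      by_contra h2
      exact h1 ⟨x, hx, (memU a x).2 (Or.inr h2)⟩
  have f2 : ∀ a b, a ≠ b → (a ∈ C b ↔ ¬ b ∈ U a) := by
    intro a b hab
    rw [memU]
    constructor
    · rintro h1 (h2 | h2)
      · exact hab h2.symm
      · exact h2 h1
    · intro h1
      by_contra h2
      exact h1 (Or.inr h2)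
  have f3 : ∀ a b, a ≠ b → (a ∈ cl D (C b) ↔ ¬ b ∈ M a) := by
    intro a b hab
    rw [memM, mem_cl_iff]
    constructor
    · rintro ⟨s, hs, hs'⟩ h1
      rcases (memU s b).1 (h1 s hs) with h2 | h2
      · subst h2
        rcases (memU a b).1 (h1 a (nn_self D a)) with h3 | h3
        · exact hab h3.symm
        · exact h3 (h.right b a hs)
      · exact h2 hs'
    · intro h1
      by_contra h2
      refine h1 fun s hs => (memU s b).2 (Or.inr fun hc => h2 ⟨s, hs, hc⟩)
  have f4 : ∀ a b, a ≠ b → a ∈ cl D (Co b) → ¬ b ∈ cl D (M a) := by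
    intro a b hab h1 h2
    obtain ⟨y, hy, hy'⟩ := mem_cl_iff.1 h1
    obtain ⟨x, hx, hx'⟩ := mem_cl_iff.1 h2
    rw [memCo] at hy'
    rw [memM] at hx'
    have h3 : x = y := by
      rcases (memU y x).1 (hx' y hy) with h3 | h3
      · exact h3
      · exact absurd (hy' x hx) h3
    subst h3
    have h4 : x = a := by
      rcases (memU a x).1 (hx' a (nn_self D a)) with h3 | h3
      · exact h3
      · exact absurd (h.right x a hy) h3
    subst h4
    exact hab (h.compat x b (h.left x b hx) (hy' b (nn_self D b)))
  have hself : ∀ a, a ∈ m a ∧ a ∈ Co a := fun a =>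
    ⟨(memm a a).2 fun s hs => h.left s a hs, (memCo a a).2 fun s hs => h.right s a hs⟩
  have hinner : Inner D m Co :=
    { left := fun a => (hself a).1
      right := fun a => (hself a).2
      compat := by
        intro a b h1 h2
        by_contra hab
        exact f4 a b hab h2 (cl_mono' (hmM a) h1) }
  -- bookkeeping
  have hpt : ∀ a b : V, 0 ≤ (if a ∈ cl D (C b) then (1 : ℝ) else 0) - (if a ∈ C b then 1 else 0)
      + (if b ∈ M a then 1 else 0) - (if b ∈ U a then 1 else 0)
      - (if a ∈ cl D (Co b) then 1 else 0) + (if a ∈ Co b then 1 else 0)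
      - (if b ∈ cl D (M a) then 1 else 0) + (if b ∈ cl D (U a) then 1 else 0) := by
    intro a b
    by_cases hab : a = b
    · subst hab
      have g1 : a ∈ C a := h.right a a (nn_self D a)
      have g2 : a ∈ cl D (C a) := subset_cl D _ g1
      have g3 : a ∈ M a := hmM a (hself a).1
      have g4 : a ∈ U a := (memU a a).2 (Or.inl rfl)
      have g5 : a ∈ Co a := (hself a).2
      rw [if_pos g1, if_pos g2, if_pos g3, if_pos g4, if_pos g5,
        if_pos (subset_cl D _ g5), if_pos (subset_cl D _ g3), if_pos (subset_cl D _ g4)]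
      norm_num
    · have e1 : (if a ∈ Co b then (1 : ℝ) else 0) = 1 - (if b ∈ cl D (U a) then 1 else 0) := by
        by_cases k : b ∈ cl D (U a)
        · rw [if_pos k, if_neg (fun k' => (f1 a b hab).1 k' k)]; norm_num
        · rw [if_neg k, if_pos ((f1 a b hab).2 k)]; norm_num
      have e2 : (if a ∈ C b then (1 : ℝ) else 0) = 1 - (if b ∈ U a then 1 else 0) := by
        by_cases k : b ∈ U a
        · rw [if_pos k, if_neg (fun k' => (f2 a b hab).1 k' k)]; norm_num
        · rw [if_neg k, if_pos ((f2 a b hab).2 k)]; norm_num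
      have e3 : (if a ∈ cl D (C b) then (1 : ℝ) else 0) = 1 - (if b ∈ M a then 1 else 0) := by
        by_cases k : b ∈ M a
        · rw [if_pos k, if_neg (fun k' => (f3 a b hab).1 k' k)]; norm_num
        · rw [if_neg k, if_pos ((f3 a b hab).2 k)]; norm_num
      have e4 : (if a ∈ cl D (Co b) then (1 : ℝ) else 0) + (if b ∈ cl D (M a) then 1 else 0) ≤ 1 := by
        by_cases k : a ∈ cl D (Co b)
        · rw [if_pos k, if_neg (f4 a b hab k)]; norm_num
        · rw [if_neg k]
          split_ifs <;> norm_num
      rw [e1, e2, e3]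
      linarith
  have hbook : ∑ b, w b * W w (cl D (Co b)) - ∑ b, w b * W w (Co b)
      + ∑ a, w a * W w (cl D (M a)) - ∑ a, w a * W w (cl D (U a)) ≤
      ∑ b, w b * W w (cl D (C b)) - ∑ b, w b * W w (C b)
      + ∑ a, w a * W w (M a) - ∑ a, w a * W w (U a) := by
    have h1 : 0 ≤ ∑ a, ∑ b, w a * w b * ((if a ∈ cl D (C b) then (1 : ℝ) else 0)
      - (if a ∈ C b then 1 else 0)
      + (if b ∈ M a then 1 else 0) - (if b ∈ U a then 1 else 0)
      - (if a ∈ cl D (Co b) then 1 else 0) + (if a ∈ Co b then 1 else 0)
      - (if b ∈ cl D (M a) then 1 else 0) + (if b ∈ cl D (U a) then 1 else 0)) :=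
      Finset.sum_nonneg fun a _ => Finset.sum_nonneg fun b _ =>
        mul_nonneg (mul_nonneg (hw0 a) (hw0 b)) (hpt a b)
    simp only [mul_add, mul_sub, Finset.sum_add_distrib, Finset.sum_sub_distrib] at h1
    rw [← dsum1 w (fun b => cl D (C b)), ← dsum1 w C, ← dsum2 w M, ← dsum2 w U,
      ← dsum1 w (fun b => cl D (Co b)), ← dsum1 w Co, ← dsum2 w (fun a => cl D (M a)),
      ← dsum2 w (fun a => cl D (U a))] at h1
    linarith
  refine ⟨m, Co, hinner, ?_⟩
  unfold En2
  unfold cc at hkey ⊢
  simp only [mul_sub, Finset.sum_sub_distrib] at hkey ⊢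
  linarith

end Vale.Agent.P038.H65
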