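import Vale.Agent.P038.H65.Inout

/-!
# P038 (H65): Seymour's second neighbourhood conjecture
-/

namespace Vale.Agent.P038.H65

open Finset Vale.Agent.P038.H139 Vale.Agent.P038.H38 Vale.Agent.P038.H71

universe u

variable {V : Type u} [Fintype V]

theorem cc_eq_L1 [DecidableEq V] (D : OGraph V) (w : V → ℝ) (S : Finset V) :
    cc D w S = W w (L1 D S) := by
  have e : L1 D S = cl D S \ S := by
    ext z
    rw [mem_L1', Finset.mem_sdiff]
  rw [e, W_sdiff (subset_cl D S)]
  rfl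

theorem cc_cl_eq_L2 [DecidableEq V] (D : OGraph V) (w : V → ℝ) (S : Finset V) :
    cc D w (cl D S) = W w (L2 D S) := by
  have e : L2 D S = cl D (cl D S) \ cl D S := by
    ext z
    rw [mem_L2, Finset.mem_sdiff]
  rw [e, W_sdiff (subset_cl D (cl D S))]
  rfl

/-- The strict inequality for all sets is impossible in a strongly connected oriented graph with
positive weights. -/
theorem false_of_GS [DecidableEq V] {D : OGraph V} {w : V → ℝ} (hw : ∀ v, 0 < w v)
    (hG : GS D w)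
    (hstrong : ∀ S : Finset V, S.Nonempty → (∃ z, z ∉ S) → (L1 D S).Nonempty)
    (harc : ∃ a b, D.arc a b) : False := by
  classical
  obtain ⟨⟨X, Y⟩, hXY, hminI⟩ := Set.exists_min_image
    {p : (V → Finset V) × (V → Finset V) | Inner D p.1 p.2} (fun p => En2 D w p.1 p.2)
    (Set.toFinite _) ⟨(fun a => {a}, fun a => {a}), inner_singleton D⟩
  obtain ⟨⟨B, C⟩, hBC, hminO⟩ := Set.exists_min_image
    {p : (V → Finset V) × (V → Finset V) | Outer D p.1 p.2} (fun p => En2 D w p.1 p.2)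
    (Set.toFinite _) ⟨(fun a => cl D {a}, fun a => cl D {a}), (inner_singleton D).outer⟩
  have hXY' : Inner D X Y := hXY
  have hBC' : Outer D B C := hBC
  obtain ⟨X', Y', hI, hle⟩ := inner_of_outer D hw hBC' fun B' C' h' => hminO (B', C') h'
  have h1 : En2 D w X Y ≤ En2 D w X' Y' := hminI (X', Y') hI
  have h2 : En2 D w B C ≤ En2 D w (fun a => cl D (X a)) (fun b => cl D (Y b)) :=
    hminO (_, _) hXY'.outer
  have hge : ∀ S, cc D w (cl D S) ≤ cc D w S := fun S => by
    rw [cc_cl_eq_L2, cc_eq_L1]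
    exact hG.le S
  obtain ⟨a, b, hab⟩ := harc
  have hab' : a ∉ cl D (X b) := by
    intro h
    have := hXY'.compat b a h (mem_cl_iff.2 ⟨a, Or.inr hab, hXY'.right a⟩)
    subst this
    exact D.loopless _ hab
  have hlt : cc D w (cl D (X b)) < cc D w (X b) := by
    rw [cc_cl_eq_L2, cc_eq_L1]
    exact hG _ (hstrong _ ⟨b, hXY'.left b⟩ ⟨a, fun h => hab' (subset_cl D _ h)⟩)
  have h3 : En2 D w (fun a => cl D (X a)) (fun b => cl D (Y b)) < En2 D w X Y := by
    unfold En2
    have h4 : ∑ a, w a * cc D w (cl D (X a)) < ∑ a, w a * cc D w (X a) :=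
      Finset.sum_lt_sum (fun a _ => mul_le_mul_of_nonneg_left (hge _) (hw a).le)
        ⟨b, Finset.mem_univ _, mul_lt_mul_of_pos_left hlt (hw b)⟩
    have h5 : ∑ a, w a * cc D w (cl D (Y a)) ≤ ∑ a, w a * cc D w (Y a) :=
      Finset.sum_le_sum fun a _ => mul_le_mul_of_nonneg_left (hge _) (hw a).le
    exact add_lt_add_of_lt_of_le h4 h5
  linarith

/-- 294's strict inequality for all sets in the normal form with the fewest arcs. -/
theorem gs_of_nfmin [DecidableEq V] {D : OGraph V} {w : V → ℝ} (h : NFmin 1 D w) : GS D w := by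
  intro S hS
  have e1 : L1 D S = Lx D S := rfl
  have hT : (∅ : Finset V) ⊂ Lx D S := by
    rw [Finset.empty_ssubset]
    exact hS
  have h1 := plan_lt h S ∅ hT
  have e2 : cl D (∅ : Finset V) = ∅ := by
    rw [Finset.eq_empty_iff_forall_notMem]
    intro z hz
    obtain ⟨a, -, ha⟩ := mem_cl_iff.1 hz
    exact absurd ha (Finset.notMem_empty a)
  have h2 : dd 1 D w S ∅ = 0 := by
    unfold dd
    rw [e2, Finset.empty_sdiff]
    simp [W]
  rw [h2] at h1
  unfold dd at h1
  have hdis : Disjoint (L2 D S) (L1 D S) := by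
    rw [Finset.disjoint_left]
    intro z h3 h4
    exact (mem_L2.1 h3).2 (mem_L1'.1 h4).1
  have hsub : L2 D S ∪ L1 D S ⊆ cl D (Lx D S) \ S := by
    intro z hz
    rcases Finset.mem_union.1 hz with h3 | h3
    · obtain ⟨h4, h5⟩ := mem_L2.1 h3
      obtain ⟨y, hy, hy'⟩ := mem_cl_iff.1 h4
      refine Finset.mem_sdiff.2 ⟨mem_cl_iff.2 ⟨y, hy, ?_⟩, fun h6 => h5 (subset_cl D _ h6)⟩
      rw [← e1, mem_L1']
      exact ⟨hy', fun h6 => h5 (mem_cl_iff.2 ⟨y, hy, h6⟩)⟩
    · exact Finset.mem_sdiff.2 ⟨subset_cl D _ (e1 ▸ h3), (mem_L1.1 h3).2⟩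
  have h3 := W_mono h.nonneg hsub
  rw [W_union hdis] at h3
  rw [← e1] at h1
  rw [← e1] at h3
  linarith

theorem no_NF (V : Type u) [Fintype V] [Nonempty V] (D : OGraph V) (w : V → ℝ) :
    ¬ NF 1 D w := by
  classical
  intro h
  obtain ⟨D0, w0, h0⟩ := exists_nfmin h
  exact false_of_GS h0.pos (gs_of_nfmin h0) (strong_of_NF h0.toNF) (exists_arc_of_NF h0.toNF)

/-- Seymour's second neighbourhood conjecture, weighted form. -/
theorem seymour_weighted {V : Type u} [Fintype V] [Nonempty V] (D : OGraph V) (w : V → ℝ)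
    (hw : ∀ v, 0 ≤ w v) : ∃ v, ∑ u ∈ N1 D v, w u ≤ ∑ u ∈ N2 D v, w u := by
  obtain ⟨v, hv⟩ := snc_of_noNF (lam := 1) zero_le_one (fun V _ _ D w => no_NF V D w) D w hw
  exact ⟨v, by rwa [one_mul] at hv⟩

/-- Seymour's second neighbourhood conjecture. -/
theorem seymour {V : Type u} [Fintype V] [Nonempty V] (D : OGraph V) :
    ∃ v, (N1 D v).card ≤ (N2 D v).card := by
  obtain ⟨v, hv⟩ := seymour_weighted D (fun _ => 1) (fun _ => zero_le_one)
  refine ⟨v, ?_⟩
  simp only [Finset.sum_const, nsmul_eq_mul, mul_one] at hv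
  exact_mod_cast hv

end Vale.Agent.P038.H65

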