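import Vale.Agent.P038.H38.Strong
import Vale.Agent.P038.H71.Plan

/-!
# P038 (H65): comparison of the two joint minima

Notation: `cl` is the closed out-neighbourhood, `c S = w (cl S) - w S`. Outer pairs `(B, C)` of
families: `cl {a} ⊆ B a`, `cl {a} ⊆ C a`, and `b ∈ B a`, `a ∈ C b` only for `a = b`.
Inner pairs `(X, Y)`: `a ∈ X a`, `a ∈ Y a`, and `b ∈ cl (X a)`, `a ∈ cl (Y b)` only for `a = b`.
For a minimal outer pair `(B, C)` the pair of the intersections over the closed in-neighbourhoods
is an inner pair, and its energy is at most the energy of `(B, C)`.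
-/

namespace Vale.Agent.P038.H65

open Finset Vale.Agent.P038.H139 Vale.Agent.P038.H38

universe u

section Cake

variable {V : Type u}

/-- A layer cake inequality: Hall's condition on all sets gives the inequality for functions. -/
theorem cake (r : V → V → Prop) [∀ a z, Decidable (r a z)] (w : V → ℝ) (hw : ∀ v, 0 ≤ w v) :
    ∀ (G H : Finset V) (f g : V → ℝ), (∀ a ∈ G, 0 ≤ f a) → (∀ z ∈ H, 0 ≤ g z) →
      (∀ T ⊆ G, ∑ v ∈ T, w v ≤ ∑ z ∈ H.filter (fun z => ∃ a ∈ T, r a z), w z) →
      (∀ a ∈ G, ∀ z ∈ H, r a z → f a ≤ g z) →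
      ∑ a ∈ G, w a * f a ≤ ∑ z ∈ H, w z * g z := by
  intro G
  induction G using Finset.strongInduction with
  | H G ih =>
    intro H f g hf hg hall hfg
    rcases G.eq_empty_or_nonempty with hG | hG
    · subst hG
      rw [Finset.sum_empty]
      exact Finset.sum_nonneg fun z hz => mul_nonneg (hw z) (hg z hz)
    obtain ⟨a0, ha0, hmin⟩ := Finset.exists_min_image G f hG
    set m := f a0 with hm
    have hm0 : 0 ≤ m := hf a0 ha0
    set G' := G.filter (fun a => m < f a) with hG'
    set H' := H.filter (fun z => ∃ a ∈ G, r a z) with hH'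
    have hsub : G' ⊂ G := by
      refine Finset.ssubset_iff_subset_ne.2 ⟨Finset.filter_subset _ _, fun he => ?_⟩
      have : a0 ∈ G' := he ▸ ha0
      exact lt_irrefl _ (Finset.mem_filter.1 this).2
    have h1 := ih G' hsub H' (fun a => f a - m) (fun z => g z - m)
      (fun a ha => sub_nonneg.2 (hmin a (hsub.1 ha)))
      (fun z hz => by
        obtain ⟨hz1, a, ha, haz⟩ := Finset.mem_filter.1 hz
        exact sub_nonneg.2 ((hmin a ha).trans (hfg a ha z hz1 haz)))
      (fun T hT => by
        refine (hall T (hT.trans hsub.1)).trans (le_of_eq ?_)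
        refine Finset.sum_congr ?_ fun _ _ => rfl
        ext z
        simp only [hH', Finset.mem_filter]
        constructor
        · rintro ⟨hz, a, ha, haz⟩
          exact ⟨⟨hz, a, hsub.1 (hT ha), haz⟩, a, ha, haz⟩
        · rintro ⟨⟨hz, -⟩, h⟩
          exact ⟨hz, h⟩)
      (fun a ha z hz haz => by
        have := hfg a (hsub.1 ha) z (Finset.mem_filter.1 hz).1 haz
        linarith)
    have h2 : ∑ a ∈ G, w a * f a = ∑ a ∈ G', w a * (f a - m) + m * ∑ a ∈ G, w a := by
      have e1 : ∑ a ∈ G', w a * (f a - m) = ∑ a ∈ G, w a * (f a - m) := by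
        refine Finset.sum_subset hsub.1 fun a ha ha' => ?_
        have h3 : f a ≤ m := by
          by_contra h4
          exact ha' (Finset.mem_filter.2 ⟨ha, not_le.1 h4⟩)
        have h4 : f a = m := le_antisymm h3 (hmin a ha)
        rw [h4, sub_self, mul_zero]
      rw [e1, Finset.mul_sum, ← Finset.sum_add_distrib]
      refine Finset.sum_congr rfl fun a _ => ?_
      ring
    have h3 : ∑ z ∈ H', w z * g z = ∑ z ∈ H', w z * (g z - m) + m * ∑ z ∈ H', w z := by
      rw [Finset.mul_sum, ← Finset.sum_add_distrib]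
      refine Finset.sum_congr rfl fun a _ => ?_
      ring
    have h4 : ∑ z ∈ H', w z * g z ≤ ∑ z ∈ H, w z * g z :=
      Finset.sum_le_sum_of_subset_of_nonneg (Finset.filter_subset _ _)
        fun z hz _ => mul_nonneg (hw z) (hg z hz)
    have h5 : ∑ v ∈ G, w v ≤ ∑ z ∈ H', w z := hall G (Finset.Subset.refl _)
    have h6 : m * ∑ v ∈ G, w v ≤ m * ∑ z ∈ H', w z := mul_le_mul_of_nonneg_left h5 hm0
    linarith

end Cake

section Mc

variable {V : Type u} [DecidableEq V]

theorem exists_mc (c : Finset V → ℝ) (K Y : Finset V) (h : Y ⊆ K) :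
    ∃ m, (∃ Z, Y ⊆ Z ∧ Z ⊆ K ∧ c Z = m) ∧ ∀ Z, Y ⊆ Z → Z ⊆ K → m ≤ c Z := by
  obtain ⟨Z, hZ, hmin⟩ := Finset.exists_min_image (K.powerset.filter (fun Z => Y ⊆ Z)) c
    ⟨K, Finset.mem_filter.2 ⟨Finset.mem_powerset.2 (Finset.Subset.refl _), h⟩⟩
  obtain ⟨hZ1, hZ2⟩ := Finset.mem_filter.1 hZ
  exact ⟨c Z, ⟨Z, hZ2, Finset.mem_powerset.1 hZ1, rfl⟩, fun Z' h1 h2 =>
    hmin Z' (Finset.mem_filter.2 ⟨Finset.mem_powerset.2 h2, h1⟩)⟩

/-- The minimum of `c` over the sets between `Y` and `K`. -/
noncomputable def mc (c : Finset V → ℝ) (K Y : Finset V) : ℝ :=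
  if h : Y ⊆ K then (exists_mc c K Y h).choose else 0

theorem mc_spec (c : Finset V → ℝ) {K Y : Finset V} (h : Y ⊆ K) :
    ∃ Z, Y ⊆ Z ∧ Z ⊆ K ∧ c Z = mc c K Y := by
  rw [mc, dif_pos h]
  exact (exists_mc c K Y h).choose_spec.1

theorem mc_le (c : Finset V → ℝ) {K Y Z : Finset V} (h1 : Y ⊆ Z) (h2 : Z ⊆ K) :
    mc c K Y ≤ c Z := by
  rw [mc, dif_pos (h1.trans h2)]
  exact (exists_mc c K Y (h1.trans h2)).choose_spec.2 Z h1 h2

theorem mc_mono (c : Finset V → ℝ) {K Y Y' : Finset V} (h : Y ⊆ Y') (h' : Y' ⊆ K) :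
    mc c K Y ≤ mc c K Y' := by
  obtain ⟨Z, hZ1, hZ2, hZ⟩ := mc_spec c h'
  rw [← hZ]
  exact mc_le c (h.trans hZ1) hZ2

theorem mc_self (c : Finset V → ℝ) (K : Finset V) : mc c K K = c K := by
  obtain ⟨Z, hZ1, hZ2, hZ⟩ := mc_spec c (Finset.Subset.refl K)
  rw [← hZ, Finset.Subset.antisymm hZ2 hZ1]

theorem mc_eq (c : Finset V → ℝ) {K P : Finset V} (hPK : P ⊆ K)
    (h : ∀ Z, P ⊆ Z → Z ⊆ K → c P ≤ c Z) : mc c K P = c P := by
  obtain ⟨Z, hZ1, hZ2, hZ⟩ := mc_spec c hPK
  refine le_antisymm (mc_le c (Finset.Subset.refl _) hPK) ?_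
  rw [← hZ]
  exact h Z hZ1 hZ2

end Mc


section Key

variable {V : Type u} [Fintype V] [DecidableEq V]

/-- The abstract exchange inequality. `N z a` means that `a` is a closed in-neighbour of `z`. -/
theorem key (c : Finset V → ℝ) (hsub : ∀ S T, c (S ∩ T) + c (S ∪ T) ≤ c S + c T)
    (w : V → ℝ) (hw : ∀ v, 0 ≤ w v) (N : V → V → Prop) [∀ z a, Decidable (N z a)]
    (B U m M : V → Finset V) (hBU : ∀ a, B a ⊆ U a)
    (hm : ∀ z b, b ∈ m z ↔ ∀ a, N z a → b ∈ B a)
    (hM : ∀ z b, b ∈ M z ↔ ∀ a, N z a → b ∈ U a)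
    (hrow : ∀ a Z, B a ⊆ Z → Z ⊆ U a → c (B a) ≤ c Z)
    (hcol : ∀ b (T : Finset V), (∀ a ∈ T, b ∈ U a ∧ b ∉ B a) →
      ∑ v ∈ T, w v ≤ ∑ z ∈ univ.filter (fun z => b ∈ M z ∧ ∃ a ∈ T, N z a), w z) :
    ∑ a, w a * (c (U a) - c (B a)) ≤ ∑ z, w z * (c (M z) - c (m z)) := by
  have hmM : ∀ z, m z ⊆ M z := fun z b hb =>
    (hM z b).2 fun a ha => hBU a ((hm z b).1 hb a ha)
  -- the rows of `m` are optimal
  have hrow' : ∀ z Z, m z ⊆ Z → Z ⊆ M z → c (m z) ≤ c Z := by
    intro z Z h1 h2
    have hind : ∀ S : Finset V, (∀ a ∈ S, N z a) →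
        c (Z.filter (fun b => ∀ a ∈ S, b ∈ B a)) ≤ c Z := by
      intro S
      induction S using Finset.induction with
      | empty =>
        intro _
        have : Z.filter (fun b => ∀ a ∈ (∅ : Finset V), b ∈ B a) = Z :=
          Finset.filter_true_of_mem fun b _ a ha => absurd ha (Finset.notMem_empty a)
        rw [this]
      | insert a S ha ih =>
        intro hS
        have ih' := ih fun a' ha' => hS a' (Finset.mem_insert_of_mem ha')
        set Y := Z.filter (fun b => ∀ a ∈ S, b ∈ B a) with hY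
        have e : Z.filter (fun b => ∀ a' ∈ insert a S, b ∈ B a') = Y ∩ B a := by
          ext b
          simp only [hY, Finset.mem_filter, Finset.mem_inter, Finset.mem_insert]
          constructor
          · rintro ⟨hb, h⟩
            exact ⟨⟨hb, fun a' ha' => h a' (Or.inr ha')⟩, h a (Or.inl rfl)⟩
          · rintro ⟨⟨hb, h⟩, h'⟩
            refine ⟨hb, fun a' ha' => ?_⟩
            rcases ha' with rfl | ha'
            · exact h'
            · exact h a' ha'
        rw [e]
        have hza : N z a := hS a (Finset.mem_insert_self _ _)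
        have h3 : c (B a) ≤ c (Y ∪ B a) := by
          refine hrow a _ Finset.subset_union_right (Finset.union_subset ?_ (hBU a))
          intro b hb
          exact (hM z b).1 (h2 (Finset.mem_filter.1 hb).1) a hza
        have h4 := hsub Y (B a)
        linarith
    have h3 := hind (univ.filter (fun a => N z a)) fun a ha => (Finset.mem_filter.1 ha).2
    have e : Z.filter (fun b => ∀ a ∈ univ.filter (fun a => N z a), b ∈ B a) = m z := by
      ext b
      simp only [Finset.mem_filter, Finset.mem_univ, true_and]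
      constructor
      · rintro ⟨-, h⟩
        exact (hm z b).2 h
      · intro h
        exact ⟨h1 h, (hm z b).1 h⟩
    rwa [e] at h3
  -- a fixed numbering
  let e : V → ℕ := fun v => (Fintype.equivFin V v : ℕ)
  have einj : ∀ {a b : V}, e a = e b → a = b := fun h =>
    (Fintype.equivFin V).injective (Fin.ext h)
  let F : V → ℕ → ℝ := fun a i => mc c (U a) (B a ∪ (U a).filter (fun v => e v < i))
  let H : V → ℕ → ℝ := fun z i => mc c (M z) (m z ∪ (M z).filter (fun v => e v < i))
  have hsF : ∀ a i, B a ∪ (U a).filter (fun v => e v < i) ⊆ U a := fun a i =>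
    Finset.union_subset (hBU a) (Finset.filter_subset _ _)
  have hsH : ∀ a i, m a ∪ (M a).filter (fun v => e v < i) ⊆ M a := fun a i =>
    Finset.union_subset (hmM a) (Finset.filter_subset _ _)
  have hF0 : ∀ a, F a 0 = c (B a) := by
    intro a
    have : (U a).filter (fun v => e v < 0) = ∅ :=
      Finset.filter_false_of_mem fun v _ => Nat.not_lt_zero _
    show mc c (U a) (B a ∪ (U a).filter (fun v => e v < 0)) = _
    rw [this, Finset.union_empty]
    exact mc_eq c (hBU a) (hrow a)
  have hH0 : ∀ a, H a 0 = c (m a) := by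
    intro a
    have : (M a).filter (fun v => e v < 0) = ∅ :=
      Finset.filter_false_of_mem fun v _ => Nat.not_lt_zero _
    show mc c (M a) (m a ∪ (M a).filter (fun v => e v < 0)) = _
    rw [this, Finset.union_empty]
    exact mc_eq c (hmM a) (hrow' a)
  have elt : ∀ v, e v < Fintype.card V := fun v => (Fintype.equivFin V v).2
  have hFn : ∀ a, F a (Fintype.card V) = c (U a) := by
    intro a
    have : (U a).filter (fun v => e v < Fintype.card V) = U a :=
      Finset.filter_true_of_mem fun v _ => elt v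
    show mc c (U a) (B a ∪ (U a).filter (fun v => e v < Fintype.card V)) = _
    rw [this, Finset.union_eq_right.2 (hBU a)]
    exact mc_self c _
  have hHn : ∀ a, H a (Fintype.card V) = c (M a) := by
    intro a
    have : (M a).filter (fun v => e v < Fintype.card V) = M a :=
      Finset.filter_true_of_mem fun v _ => elt v
    show mc c (M a) (m a ∪ (M a).filter (fun v => e v < Fintype.card V)) = _
    rw [this, Finset.union_eq_right.2 (hmM a)]
    exact mc_self c _
  have tele : ∀ f : ℕ → ℝ, ∑ b : V, (f (e b + 1) - f (e b)) = f (Fintype.card V) - f 0 := by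
    intro f
    have h1 : ∑ b : V, (f (e b + 1) - f (e b)) =
        ∑ i : Fin (Fintype.card V), (f ((i : ℕ) + 1) - f (i : ℕ)) :=
      (Fintype.equivFin V).sum_comp (fun i : Fin (Fintype.card V) => f ((i : ℕ) + 1) - f (i : ℕ))
    rw [h1, Fin.sum_univ_eq_sum_range (fun i => f (i + 1) - f i), Finset.sum_range_sub]
  have monoU : ∀ (U : Finset V) (i : ℕ),
      U.filter (fun v => e v < i) ⊆ U.filter (fun v => e v < i + 1) := fun U i v hv => by
    obtain ⟨h1, h2⟩ := Finset.mem_filter.1 hv
    exact Finset.mem_filter.2 ⟨h1, Nat.lt_succ_of_lt h2⟩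
  have hα : ∀ a b, 0 ≤ F a (e b + 1) - F a (e b) := fun a b =>
    sub_nonneg.2 (mc_mono c (Finset.union_subset_union_right (monoU _ _)) (hsF a _))
  have hγ : ∀ a b, 0 ≤ H a (e b + 1) - H a (e b) := fun a b =>
    sub_nonneg.2 (mc_mono c (Finset.union_subset_union_right (monoU _ _)) (hsH a _))
  have hα0 : ∀ a b, ¬ (b ∈ U a ∧ b ∉ B a) → F a (e b + 1) - F a (e b) = 0 := by
    intro a b hb
    have : B a ∪ (U a).filter (fun v => e v < e b + 1) =
        B a ∪ (U a).filter (fun v => e v < e b) := by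
      refine Finset.Subset.antisymm ?_ (Finset.union_subset_union_right (monoU _ _))
      intro v hv
      rcases Finset.mem_union.1 hv with hv | hv
      · exact Finset.mem_union_left _ hv
      · obtain ⟨h1, h2⟩ := Finset.mem_filter.1 hv
        rcases (Nat.lt_succ_iff.1 h2).lt_or_eq with h3 | h3
        · exact Finset.mem_union_right _ (Finset.mem_filter.2 ⟨h1, h3⟩)
        · have h4 : v = b := einj h3
          subst h4
          refine Finset.mem_union_left _ ?_
          by_contra h5
          exact hb ⟨h1, h5⟩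
    show mc c (U a) _ - mc c (U a) _ = 0
    rw [this, sub_self]
  have hcmp : ∀ z a b, N z a → b ∈ M z → F a (e b + 1) - F a (e b) ≤ H z (e b + 1) - H z (e b) := by
    intro z a b hza hb
    have hmB : m z ⊆ B a := fun v hv => (hm z v).1 hv a hza
    have hMU : M z ⊆ U a := fun v hv => (hM z v).1 hv a hza
    obtain ⟨Y, hY1, hY2, hY⟩ := mc_spec c (hsH z (e b + 1))
    obtain ⟨Y', hY1', hY2', hY'⟩ := mc_spec c (hsF a (e b))
    have h1 : F a (e b + 1) ≤ c (Y ∪ Y') := by
      refine mc_le c ?_ (Finset.union_subset (hY2.trans hMU) hY2')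
      intro v hv
      rcases Finset.mem_union.1 hv with hv | hv
      · exact Finset.mem_union_right _ (hY1' (Finset.mem_union_left _ hv))
      · obtain ⟨h1, h2⟩ := Finset.mem_filter.1 hv
        rcases (Nat.lt_succ_iff.1 h2).lt_or_eq with h3 | h3
        · exact Finset.mem_union_right _ (hY1' (Finset.mem_union_right _
            (Finset.mem_filter.2 ⟨h1, h3⟩)))
        · have h4 : v = b := einj h3
          subst h4
          exact Finset.mem_union_left _ (hY1 (Finset.mem_union_right _
            (Finset.mem_filter.2 ⟨hb, Nat.lt_succ_self _⟩)))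
    have h2 : H z (e b) ≤ c (Y ∩ Y') := by
      refine mc_le c ?_ (Finset.inter_subset_left.trans hY2)
      intro v hv
      rcases Finset.mem_union.1 hv with hv | hv
      · exact Finset.mem_inter.2 ⟨hY1 (Finset.mem_union_left _ hv),
          hY1' (Finset.mem_union_left _ (hmB hv))⟩
      · obtain ⟨h1, h2⟩ := Finset.mem_filter.1 hv
        exact Finset.mem_inter.2 ⟨hY1 (Finset.mem_union_right _
          (Finset.mem_filter.2 ⟨h1, Nat.lt_succ_of_lt h2⟩)),
          hY1' (Finset.mem_union_right _ (Finset.mem_filter.2 ⟨hMU h1, h2⟩))⟩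
    have h3 := hsub Y Y'
    have h4 : c Y = H z (e b + 1) := hY
    have h5 : c Y' = F a (e b) := hY'
    linarith
  have hL : ∑ a, w a * (c (U a) - c (B a)) = ∑ b : V, ∑ a, w a * (F a (e b + 1) - F a (e b)) := by
    rw [Finset.sum_comm]
    refine Finset.sum_congr rfl fun a _ => ?_
    rw [← Finset.mul_sum, tele (F a), hFn, hF0]
  have hR : ∑ z, w z * (c (M z) - c (m z)) = ∑ b : V, ∑ z, w z * (H z (e b + 1) - H z (e b)) := by
    rw [Finset.sum_comm]
    refine Finset.sum_congr rfl fun a _ => ?_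
    rw [← Finset.mul_sum, tele (H a), hHn, hH0]
  rw [hL, hR]
  refine Finset.sum_le_sum fun b _ => ?_
  have h1 : ∑ a, w a * (F a (e b + 1) - F a (e b)) =
      ∑ a ∈ univ.filter (fun a => b ∈ U a ∧ b ∉ B a), w a * (F a (e b + 1) - F a (e b)) := by
    refine (Finset.sum_subset (Finset.filter_subset _ _) fun a _ ha => ?_).symm
    rw [hα0 a b (fun h => ha (Finset.mem_filter.2 ⟨Finset.mem_univ _, h⟩)), mul_zero]
  have h2 : ∑ z ∈ univ.filter (fun z => b ∈ M z), w z * (H z (e b + 1) - H z (e b)) ≤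
      ∑ z, w z * (H z (e b + 1) - H z (e b)) :=
    Finset.sum_le_sum_of_subset_of_nonneg (Finset.filter_subset _ _)
      fun z _ _ => mul_nonneg (hw z) (hγ z b)
  rw [h1]
  refine le_trans ?_ h2
  refine cake (fun a z => N z a) w hw _ _ _ _ (fun a _ => hα a b) (fun z _ => hγ z b) ?_ ?_
  · intro T hT
    refine (hcol b T fun a ha => (Finset.mem_filter.1 (hT ha)).2).trans (le_of_eq ?_)
    refine Finset.sum_congr ?_ fun _ _ => rfl
    ext z
    simp only [Finset.mem_filter, Finset.mem_univ, true_and]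
  · intro a _ z hz haz
    exact hcmp z a b haz (Finset.mem_filter.1 hz).2

end Key

end Vale.Agent.P038.H65
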