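import Vale.Agent.P038.H139.NF

/-!
# Twins in a minimal counterexample, and changing a row and a column at the same time
-/

namespace Vale.Agent.P038.H65

open Finset Vale.Agent.P038.H139

universe u

/-- A weighted counterexample on `V`. -/
structure CE (lam : ℝ) {V : Type u} [Fintype V] (D : OGraph V) (w : V → ℝ) : Prop where
  nonneg : ∀ v, 0 ≤ w v
  pos : ∀ v, 0 < Fw lam D w v

/-- The graph with in-neighbourhood `N⁻(u)` for `x`. -/
def copy {V : Type*} (D : OGraph V) (u x : V) (hxu : ¬ D.arc x u)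
    (h : ∀ q, D.arc q u → D.arc q x) : OGraph V where
  arc a b := (b = x ∧ D.arc a u) ∨ (b ≠ x ∧ D.arc a b)
  loopless a ha := by
    rcases ha with ⟨h1, h2⟩ | ⟨_, h2⟩
    · rw [h1] at h2
      exact hxu h2
    · exact D.loopless a h2
  asymm a b ha hb := by
    have key : ∀ c d, ((d = x ∧ D.arc c u) ∨ (d ≠ x ∧ D.arc c d)) → D.arc c d := by
      rintro c d (⟨h1, h2⟩ | ⟨_, h2⟩)
      · rw [h1]; exact h c h2
      · exact h2
    exact D.asymm a b (key a b ha) (key b a hb)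

section

variable {V : Type u} [Fintype V]

theorem twin_aux {lam : ℝ} (IH : Ind lam V)
    (D : OGraph V) (w : V → ℝ) (hw : ∀ v, 0 ≤ w v) (hF : ∀ v, 0 < Fw lam D w v) (u x : V)
    (hne : u ≠ x) (hxu : ¬ D.arc x u) (h : ∀ q, D.arc q u → D.arc q x) : False := by
  classical
  obtain ⟨-, p, hp, hp1⟩ := ce_la IH D w hw hF (fun _ => 1) (fun _ => zero_le_one)
  set D2 := copy D u x hxu h with hD2
  have hself : ∀ a, D2.arc a x ↔ D.arc a u := by
    intro a
    constructor
    · rintro (⟨_, h1⟩ | ⟨h1, _⟩)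
      · exact h1
      · exact absurd rfl h1
    · intro h1
      exact Or.inl ⟨rfl, h1⟩
  have hoth : ∀ a b, b ≠ x → (D2.arc a b ↔ D.arc a b) := by
    intro a b hb
    constructor
    · rintro (⟨h1, _⟩ | ⟨_, h1⟩)
      · exact absurd h1 hb
      · exact h1
    · intro h1
      exact Or.inr ⟨hb, h1⟩
  have hsub : ∀ a b, D2.arc a b → D.arc a b := by
    intro a b hab
    by_cases hb : b = x
    · subst hb
      exact h a ((hself a).1 hab)
    · exact (hoth a b hb).1 hab
  have hce : ∀ v, 1 ≤ Fw lam (rev D2) p v := by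
    intro v
    by_cases hv : v = x
    · subst hv
      have h1 := hp1 u
      have h2 : N1 (rev D2) v = N1 (rev D) u := by
        ext q
        rw [mem_N1, mem_N1]
        exact hself q
      have h3 : W p (N2 (rev D2) v) ≤ W p (N2 (rev D) u) := by
        refine W_mono hp ?_
        intro z hz
        obtain ⟨h4, h5, m, h6, h7⟩ := mem_N2.1 hz
        have h6' : D.arc m u := (hself m).1 h6
        have h7' : D.arc z m := hsub _ _ h7
        refine mem_N2.2 ⟨?_, fun h8 => h5 ((hself z).2 h8), m, h6', h7'⟩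
        intro e
        rw [e] at h7'
        exact D.asymm _ _ h6' h7'
      unfold Fw at h1 ⊢
      rw [h2]
      linarith
    · have h1 := hp1 v
      have h2 : N1 (rev D2) v = N1 (rev D) v := by
        ext q
        rw [mem_N1, mem_N1]
        exact hoth q v hv
      have h3 : W p (N2 (rev D2) v) ≤ W p (N2 (rev D) v) := by
        refine W_mono hp ?_
        intro z hz
        obtain ⟨h4, h5, m, h6, h7⟩ := mem_N2.1 hz
        exact mem_N2.2 ⟨h4, fun h8 => h5 ((hoth z v hv).2 h8), m, hsub _ _ h6, hsub _ _ h7⟩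
      unfold Fw at h1 ⊢
      rw [h2]
      linarith
  obtain ⟨⟨q, hq, hq1⟩, -⟩ := ce_la IH (rev D2) p hp
    (fun v => lt_of_lt_of_le zero_lt_one (hce v)) (fun v => if v = u then 1 else 0)
    (fun v => by split_ifs <;> norm_num)
  set y : V → ℝ := fun v => (if v = x then 1 else 0) - (if v = u then 1 else 0) with hy
  have hN1 : ∀ a, x ∈ N1 D2 a ↔ u ∈ N1 D2 a := by
    intro a
    rw [mem_N1, mem_N1, hself, hoth a u hne]
  have hN2 : ∀ a, x ∈ N2 D2 a ↔ u ∈ N2 D2 a := by
    intro a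
    rw [mem_N2, mem_N2]
    constructor
    · rintro ⟨h2, h3, m, h4, h5⟩
      have h5' : D.arc m u := (hself m).1 h5
      refine ⟨?_, fun h8 => h3 ((hself a).2 ((hoth a u hne).1 h8)), m, h4,
        (hoth m u hne).2 h5'⟩
      intro e
      have h9 := hsub _ _ h4
      rw [← e] at h9
      exact D.asymm _ _ h9 h5'
    · rintro ⟨h2, h3, m, h4, h5⟩
      have h5' : D.arc m u := (hoth m u hne).1 h5
      refine ⟨?_, fun h8 => h3 ((hoth a u hne).2 ((hself a).1 h8)), m, h4, (hself m).2 h5'⟩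
      intro e
      have h9 := hsub _ _ h4
      rw [← e] at h9
      exact D.asymm _ _ h9 (h m h5')
  have hFy : ∀ a, Fw lam D2 y a = 0 := by
    intro a
    have e : ∀ S : Finset V, W y S = (if x ∈ S then 1 else 0) - (if u ∈ S then 1 else 0) := by
      intro S
      unfold W
      rw [hy, Finset.sum_sub_distrib, Finset.sum_ite_eq', Finset.sum_ite_eq']
    unfold Fw
    rw [e, e]
    simp only [hN1, hN2, sub_self, mul_zero]
  have h1 := pair_eq lam D2 q y
  simp only [hFy, hq1, mul_zero, Finset.sum_const_zero] at h1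
  have h3 : ∑ b, (if b = u then (1 : ℝ) else 0) * y b = y u := by
    simp only [ite_mul, one_mul, zero_mul, Finset.sum_ite_eq', Finset.mem_univ, if_true]
  rw [h3] at h1
  have h4 : y u = -1 := by
    rw [hy]
    simp [hne]
  rw [h4] at h1
  norm_num at h1

/-- The reversed graph of a counterexample on a minimal vertex set is a counterexample. -/
theorem CE.exists_rev {lam : ℝ} (IH : Ind lam V) {D : OGraph V} {w : V → ℝ} (h : CE lam D w) :
    ∃ p, CE lam (rev D) p := by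
  obtain ⟨-, p, hp, hp1⟩ := ce_la IH D w h.nonneg h.pos (fun _ => 1) (fun _ => zero_le_one)
  exact ⟨p, hp, fun v => by rw [hp1 v]; exact one_pos⟩

/-- No two vertices `u ≠ x`, `x` not joined to `u` by an arc `x → u`, with
`N⁻(u) ⊆ N⁻(x)`. -/
theorem CE.twin {lam : ℝ} (IH : Ind lam V) {D : OGraph V} {w : V → ℝ} (hce : CE lam D w)
    {u x : V} (hne : u ≠ x) (hxu : ¬ D.arc x u) : ∃ q, D.arc q u ∧ ¬ D.arc q x := by
  by_contra hcon
  push Not at hcon
  exact twin_aux IH D w hce.nonneg hce.pos u x hne hxu hcon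

/-- The mirror image. -/
theorem CE.twin_out {lam : ℝ} (IH : Ind lam V) {D : OGraph V} {w : V → ℝ} (hce : CE lam D w)
    {u x : V} (hne : u ≠ x) (hux : ¬ D.arc u x) : ∃ q, D.arc u q ∧ ¬ D.arc x q := by
  obtain ⟨p, hp⟩ := hce.exists_rev IH
  exact hp.twin IH hne hux

/-- New in-neighbourhood `I` and new out-neighbourhood `O` for the vertex `x`. -/
def colrow {V : Type*} (D : OGraph V) (x : V) (I : V → Prop) (O : Finset V) (hx : x ∉ O)
    (hIO : ∀ c ∈ O, ¬ I c) : OGraph V where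
  arc a b := (a = x ∧ b ∈ O) ∨ (a ≠ x ∧ b = x ∧ I a) ∨ (a ≠ x ∧ b ≠ x ∧ D.arc a b)
  loopless a ha := by
    rcases ha with ⟨h1, h2⟩ | ⟨h1, h2, _⟩ | ⟨_, _, h2⟩
    · rw [h1] at h2; exact hx h2
    · exact h1 h2
    · exact D.loopless a h2
  asymm a b ha hb := by
    rcases ha with ⟨h1, h2⟩ | ⟨h1, h2, h3⟩ | ⟨h1, h2, h3⟩
    · rcases hb with ⟨h4, h5⟩ | ⟨h4, h5, h6⟩ | ⟨h4, h5, h6⟩
      · rw [h1] at h5; exact hx h5
      · exact hIO b h2 h6
      · exact h5 h1
    · rcases hb with ⟨h4, h5⟩ | ⟨h4, h5, h6⟩ | ⟨h4, h5, h6⟩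
      · exact hIO a h5 h3
      · exact h4 h2
      · exact h4 h2
    · rcases hb with ⟨h4, h5⟩ | ⟨h4, h5, h6⟩ | ⟨h4, h5, h6⟩
      · exact h2 h4
      · exact h1 h5
      · exact D.asymm _ _ h3 h6

/-- Changing the row and the column of `x` at the same time. -/
theorem CE.colrow {lam : ℝ} (h0 : 0 ≤ lam) {D : OGraph V} {w : V → ℝ} (hce : CE lam D w)
    (x : V) (I : V → Prop) (O : Finset V) (hx : x ∉ O) (hIO : ∀ c ∈ O, ¬ I c)
    (hI : ∀ q, D.arc q x → I q)
    (hI2 : ∀ q, I q → ∀ s, D.arc s q → s ≠ x → I s ∨ Bd D s x)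
    (hO : ∀ c ∈ O, ∀ s, I s → Bd D s c)
    (hf : 0 < (1 + lam) * W w O - W w (cl D O)) :
    CE lam (H65.colrow D x I O hx hIO) w := by
  classical
  set D' := H65.colrow D x I O hx hIO with hD'
  have hrow : ∀ b, D'.arc x b ↔ b ∈ O := by
    intro b
    constructor
    · rintro (⟨_, h2⟩ | ⟨h1, _⟩ | ⟨h1, _⟩)
      · exact h2
      · exact absurd rfl h1
      · exact absurd rfl h1
    · intro h1
      exact Or.inl ⟨rfl, h1⟩
  have hcol : ∀ a, a ≠ x → (D'.arc a x ↔ I a) := by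
    intro a ha
    constructor
    · rintro (⟨h1, _⟩ | ⟨_, _, h3⟩ | ⟨_, h2, _⟩)
      · exact absurd h1 ha
      · exact h3
      · exact absurd rfl h2
    · intro h1
      exact Or.inr (Or.inl ⟨ha, rfl, h1⟩)
  have hoth : ∀ a b, a ≠ x → b ≠ x → (D'.arc a b ↔ D.arc a b) := by
    intro a b ha hb
    constructor
    · rintro (⟨h1, _⟩ | ⟨_, h2, _⟩ | ⟨_, _, h3⟩)
      · exact absurd h1 ha
      · exact absurd h2 hb
      · exact h3
    · intro h1
      exact Or.inr (Or.inr ⟨ha, hb, h1⟩)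
  refine ⟨hce.nonneg, ?_⟩
  intro v
  by_cases hv : v = x
  · subst hv
    have h1 : N1 D' v = O := by
      ext z
      rw [mem_N1]
      exact hrow z
    have h2 : N2 D' v ∪ O ⊆ cl D O := by
      intro z hz
      rw [mem_cl]
      rcases Finset.mem_union.1 hz with hz | hz
      · obtain ⟨h3, h4, c, h5, h6⟩ := mem_N2.1 hz
        have h5' := (hrow c).1 h5
        have hc : c ≠ v := fun e => hx (e ▸ h5')
        exact Or.inr ⟨c, h5', (hoth c z hc h3).1 h6⟩
      · exact Or.inl hz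
    have h3 : Disjoint (N2 D' v) O := by
      rw [Finset.disjoint_left]
      intro z hz hz'
      exact (mem_N2.1 hz).2.1 ((hrow z).2 hz')
    have h4 := W_mono hce.nonneg h2
    rw [W_union h3] at h4
    unfold Fw
    rw [h1]
    linarith
  · have h1 : N1 D v ⊆ N1 D' v := by
      intro z hz
      rw [mem_N1] at hz ⊢
      by_cases hz' : z = x
      · subst hz'
        exact (hcol v hv).2 (hI v hz)
      · exact (hoth v z hv hz').2 hz
    have h2 : N2 D' v ⊆ N2 D v := by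
      intro z hz
      obtain ⟨h3, h4, c, h5, h6⟩ := mem_N2.1 hz
      by_cases hc : c = x
      · subst hc
        have h7 := hO z ((hrow z).1 h6) v ((hcol v hv).1 h5)
        have hz' : z ≠ c := fun e => hx (e ▸ (hrow z).1 h6)
        rcases h7 with h7 | h7
        · exact absurd ((hoth v z hv hz').2 (mem_N1.1 h7)) h4
        · exact h7
      · have h5' := (hoth v c hv hc).1 h5
        by_cases hz' : z = x
        · subst hz'
          have h6' := (hcol c hc).1 h6
          rcases hI2 c h6' v h5' hv with h7 | h7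
          · exact absurd ((hcol v hv).2 h7) h4
          · rcases h7 with h7 | h7
            · exact absurd ((hcol v hv).2 (hI v (mem_N1.1 h7))) h4
            · exact h7
        · exact mem_N2.2 ⟨h3, fun h8 => h4 ((hoth v z hv hz').2 h8), c, h5',
            (hoth c z hc hz').1 h6⟩
    have h3 := W_mono hce.nonneg h1
    have h4 := W_mono hce.nonneg h2
    have h5 := hce.pos v
    unfold Fw at h5 ⊢
    have h6 := mul_le_mul_of_nonneg_left h3 h0
    linarith

/-- (Z) of helper325, with weaker hypotheses: `u ≠ x` and every `s ≠ x` at distance exactly two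
from `u` is at distance at most two from `x`. Then `f(O) ≤ 0` for all sets `O` of vertices
outside `N⁻(x) ∪ N⁻(u) ∪ {u, x}` seen within distance two by all vertices of
`N⁻(x) ∪ N⁻(u)`. -/
theorem CE.zz {lam : ℝ} (h0 : 0 ≤ lam) (IH : Ind lam V) {D : OGraph V} {w : V → ℝ}
    (hce : CE lam D w) {u x : V} (hne : u ≠ x)
    (hP : ∀ s, s ≠ x → u ∈ N2 D s → Bd D s x) (O : Finset V)
    (hO : ∀ c ∈ O, c ≠ u ∧ c ≠ x ∧ ¬ D.arc c x ∧ ¬ D.arc c u ∧
      ∀ s, D.arc s x ∨ D.arc s u → s ≠ x → Bd D s c) :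
    (1 + lam) * W w O - W w (cl D O) ≤ 0 := by
  by_contra hcon
  push Not at hcon
  have hx : x ∉ O := fun h => (hO x h).2.1 rfl
  have hIO : ∀ c ∈ O, ¬ ((D.arc c x ∨ D.arc c u) ∧ c ≠ x) := by
    rintro c hc ⟨h1 | h1, _⟩
    · exact (hO c hc).2.2.1 h1
    · exact (hO c hc).2.2.2.1 h1
  have h1 := hce.colrow h0 x (fun c => (D.arc c x ∨ D.arc c u) ∧ c ≠ x) O hx hIO
    (fun q hq => ⟨Or.inl hq, fun e => D.loopless x (e ▸ hq)⟩)
    (by
      rintro q ⟨h2 | h2, h2'⟩ s hs hsx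
      · by_cases h3 : D.arc s x
        · exact Or.inl ⟨Or.inl h3, hsx⟩
        · exact Or.inr (Or.inr (mem_N2.2 ⟨hsx.symm, h3, q, hs, h2⟩))
      · by_cases h3 : D.arc s u
        · exact Or.inl ⟨Or.inr h3, hsx⟩
        · refine Or.inr (hP s hsx (mem_N2.2 ⟨?_, h3, q, hs, h2⟩))
          intro e
          rw [← e] at hs
          exact D.asymm _ _ hs h2)
    (fun c hc s hs => (hO c hc).2.2.2.2 s hs.1 hs.2) hcon
  obtain ⟨q, hq, hq'⟩ := h1.twin IH hne (by
    rintro (⟨_, h2⟩ | ⟨h2, _⟩ | ⟨h2, _⟩)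
    · exact (hO u h2).1 rfl
    · exact h2 rfl
    · exact h2 rfl)
  rcases hq with ⟨_, h2⟩ | ⟨_, h2, _⟩ | ⟨h2, h3, h4⟩
  · exact (hO u h2).1 rfl
  · exact hne h2
  · exact hq' (Or.inr (Or.inl ⟨h2, rfl, Or.inr h4, h2⟩))

/-- Additions only: for every admissible in-neighbourhood `I ⊇ N⁻(x)` no vertex `c ≠ x` has
`N⁺(c)` inside the set of vertices outside `I` seen within distance two by all of `I`. -/
theorem CE.zout {lam : ℝ} (h0 : 0 ≤ lam) (IH : Ind lam V) {D : OGraph V} {w : V → ℝ}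
    (hce : CE lam D w) {x c : V} (hne : c ≠ x) (I : V → Prop)
    (hI : ∀ q, D.arc q x → I q)
    (hI2 : ∀ q, I q → ∀ s, D.arc s q → s ≠ x → I s ∨ Bd D s x)
    (hc : ∀ y, D.arc c y → y ≠ x ∧ ¬ I y ∧ ∀ s, I s → Bd D s y) : False := by
  classical
  have hx : x ∉ N1 D c := fun h => (hc x (mem_N1.1 h)).1 rfl
  have hIO : ∀ y ∈ N1 D c, ¬ I y := fun y hy => (hc y (mem_N1.1 hy)).2.1
  have hf : 0 < (1 + lam) * W w (N1 D c) - W w (cl D (N1 D c)) := by
    have h1 : cl D (N1 D c) ⊆ N2 D c ∪ N1 D c := by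
      intro z hz
      rw [mem_cl] at hz
      rw [Finset.mem_union]
      rcases hz with hz | ⟨y, hy, hyz⟩
      · exact Or.inr hz
      · by_cases h2 : D.arc c z
        · exact Or.inr (mem_N1.2 h2)
        · refine Or.inl (mem_N2.2 ⟨?_, h2, y, mem_N1.1 hy, hyz⟩)
          intro e
          rw [e] at hyz
          exact D.asymm _ _ (mem_N1.1 hy) hyz
    have h2 : Disjoint (N2 D c) (N1 D c) := by
      rw [Finset.disjoint_left]
      intro z hz hz'
      exact (mem_N2.1 hz).2.1 (mem_N1.1 hz')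
    have h3 := W_mono hce.nonneg h1
    rw [W_union h2] at h3
    have h4 := hce.pos c
    unfold Fw at h4
    linarith
  have h1 := hce.colrow h0 x I (N1 D c) hx hIO hI hI2
    (fun y hy s hs => (hc y (mem_N1.1 hy)).2.2 s hs) hf
  obtain ⟨q, hq, hq'⟩ := h1.twin_out IH (u := x) (x := c) hne.symm (by
    rintro (⟨_, h2⟩ | ⟨h2, _⟩ | ⟨h2, _⟩)
    · exact D.loopless c (mem_N1.1 h2)
    · exact h2 rfl
    · exact h2 rfl)
  rcases hq with ⟨_, h2⟩ | ⟨h2, _⟩ | ⟨h2, _⟩
  · have h3 := mem_N1.1 h2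
    exact hq' (Or.inr (Or.inr ⟨hne, (hc q h3).1, h3⟩))
  · exact h2 rfl
  · exact h2 rfl

/-- (U) of helper10: `R(x)` contains no out-neighbourhood `N⁺(c)`, `c ≠ x`. -/
theorem CE.uu {lam : ℝ} (h0 : 0 ≤ lam) (IH : Ind lam V) {D : OGraph V} {w : V → ℝ}
    (hce : CE lam D w) {x c : V} (hne : c ≠ x) : ∃ y, D.arc c y ∧ ¬ InR D x y := by
  by_contra hcon
  push Not at hcon
  refine hce.zout h0 IH hne (fun q => D.arc q x) (fun q h => h) ?_ ?_
  · intro q hq s hs hsx
    by_cases h3 : D.arc s x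
    · exact Or.inl h3
    · exact Or.inr (Or.inr (mem_N2.2 ⟨hsx.symm, h3, q, hs, hq⟩))
  · intro y hy
    obtain ⟨h1, h2, h3⟩ := hcon y hy
    exact ⟨h1, h2, h3⟩

/-- Every far pair `(c, x)` has a far child: `c → y`, `s → x` with `y` not within distance two
from `s` (or `y = s`). -/
theorem CE.far_child {lam : ℝ} (h0 : 0 ≤ lam) (IH : Ind lam V) {D : OGraph V} {w : V → ℝ}
    (hce : CE lam D w) {x c : V} (hne : c ≠ x) (hcx : ¬ Bd D c x) :
    ∃ y s, D.arc c y ∧ D.arc s x ∧ ¬ Bd D s y := by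
  obtain ⟨y, hy, hy'⟩ := hce.uu h0 IH hne
  by_contra hcon
  push Not at hcon
  apply hy'
  refine ⟨?_, ?_, fun s hs => hcon y s hy hs⟩
  · rintro rfl
    exact hcx (Or.inl (mem_N1.2 hy))
  · intro h1
    apply hcx
    by_cases h2 : D.arc c x
    · exact Or.inl (mem_N1.2 h2)
    · exact Or.inr (mem_N2.2 ⟨hne.symm, h2, y, hy, h1⟩)

end

/-- The normal form is a counterexample. -/
theorem _root_.Vale.Agent.P038.H139.NF.ce {lam : ℝ} {V : Type u} [Fintype V] {D : OGraph V}
    {w : V → ℝ} (h : NF lam D w) : CE lam D w :=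
  ⟨h.nonneg, h.posF⟩

end Vale.Agent.P038.H65
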